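import Mathlib

/-!
P192: permutations of `ℤ` with bounded displacement as local rules.
-/

namespace Vale.Agent.P192

open Equiv

variable {n : ℕ}

/-- Displacements of short words only depend on a window of the local rules. -/
theorem agree (σ τ : Fin n → Perm ℤ) (D R : ℕ) (x y : ℤ)
    (hD : ∀ i z, |τ i z - z| ≤ (D : ℤ) ∧ |(τ i)⁻¹ z - z| ≤ (D : ℤ))
    (hloc : ∀ i (j : ℤ), |j| ≤ (R : ℤ) → σ i (x + j) = x + (τ i (y + j) - y) ∧
      (σ i)⁻¹ (x + j) = x + ((τ i)⁻¹ (y + j) - y)) :
    ∀ l : List (Fin n × Bool), D * l.length ≤ R →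
      FreeGroup.lift σ (FreeGroup.mk l) x = x + (FreeGroup.lift τ (FreeGroup.mk l) y - y) ∧
      |FreeGroup.lift τ (FreeGroup.mk l) y - y| ≤ ((D * l.length : ℕ) : ℤ) := by
  intro l
  induction l with
  | nil => intro _; simp [← FreeGroup.one_eq_mk]
  | cons s l ih =>
    intro hl
    simp only [List.length_cons, Nat.mul_succ] at hl
    obtain ⟨h1, h2⟩ := ih (by omega)
    have hmk : FreeGroup.mk (s :: l) = FreeGroup.mk [s] * FreeGroup.mk l := by
      rw [FreeGroup.mul_mk]; rfl
    have hlen : ((D * (s :: l).length : ℕ) : ℤ) = (D * l.length : ℕ) + D := by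
      simp only [List.length_cons]; push_cast; ring
    simp only [hmk, map_mul, Perm.mul_apply, hlen, h1]
    set u := FreeGroup.lift τ (FreeGroup.mk l) y
    have hu : |u - y| ≤ (R : ℤ) := h2.trans (by omega)
    obtain ⟨i, _ | _⟩ := s
    · have hinv : FreeGroup.mk [(i, false)] = (FreeGroup.of i)⁻¹ := rfl
      rw [hinv, map_inv, map_inv, FreeGroup.lift_apply_of, FreeGroup.lift_apply_of,
        (hloc i (u - y) hu).2, add_sub_cancel]
      refine ⟨rfl, ?_⟩
      have := (hD i u).2
      rw [abs_le] at h2 this ⊢
      constructor <;> omega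
    · have hof : FreeGroup.mk [(i, true)] = FreeGroup.of i := rfl
      rw [hof, FreeGroup.lift_apply_of, FreeGroup.lift_apply_of,
        (hloc i (u - y) hu).1, add_sub_cancel]
      refine ⟨rfl, ?_⟩
      have := (hD i u).1
      rw [abs_le] at h2 this ⊢
      constructor <;> omega

/-- The displacement of a word is at most `D` times its length. -/
theorem abs_lift_le (τ : Fin n → Perm ℤ) (D : ℕ)
    (hD : ∀ i z, |τ i z - z| ≤ (D : ℤ) ∧ |(τ i)⁻¹ z - z| ≤ (D : ℤ)) (w : FreeGroup (Fin n))
    (z : ℤ) : |FreeGroup.lift τ w z - z| ≤ ((D * w.toWord.length : ℕ) : ℤ) := by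
  have := (agree τ τ D (D * w.toWord.length) z z hD
    (fun i j _ => ⟨by ring, by ring⟩) w.toWord le_rfl).2
  rwa [FreeGroup.mk_toWord] at this

/-- A repeated window gives a periodic action satisfying the same short relations. -/
theorem periodic_extension (σ : Fin n → Perm ℤ) (D L M : ℕ) (hM : D * L + 2 * D ≤ M)
    (hD : ∀ i z, |σ i z - z| ≤ (D : ℤ) ∧ |(σ i)⁻¹ z - z| ≤ (D : ℤ))
    (R : Set (FreeGroup (Fin n))) (hL : ∀ r ∈ R, r.toWord.length ≤ L)
    (hR : ∀ r ∈ R, FreeGroup.lift σ r = 1) (a b : ℤ) (hab : a < b)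
    (hw : ∀ i (j : ℤ), |j| ≤ (M : ℤ) →
      σ i (a + j) - a = σ i (b + j) - b ∧ (σ i)⁻¹ (a + j) - a = (σ i)⁻¹ (b + j) - b) :
    ∃ σ' : Fin n → Perm ℤ, (∀ r ∈ R, FreeGroup.lift σ' r = 1) ∧
      (∀ w x, FreeGroup.lift σ' w (x + (b - a)) = FreeGroup.lift σ' w x + (b - a)) ∧
      ∀ i x, a - M ≤ x → x ≤ b + M → σ' i x = σ i x := by
  obtain ⟨p, hpb⟩ : ∃ p : ℕ, b = a + p := ⟨(b - a).toNat, by omega⟩
  have hp : 0 < p := by omega
  have hp0 : (p : ℤ) ≠ 0 := by omega
  let red : ℤ → ℤ := fun x => a + (x - a) % (p : ℤ)
  have hred : ∀ x, a ≤ red x ∧ red x < b := fun x => by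
    have := Int.emod_nonneg (x - a) hp0
    have := Int.emod_lt_of_pos (x - a) (show (0 : ℤ) < p by omega)
    simp only [red]; omega
  have hwin : ∀ (c : ℤ → ℤ), (∀ j : ℤ, |j| ≤ (M : ℤ) → c (a + j) - a = c (b + j) - b) →
      ∀ (k : ℕ) (y : ℤ), (y - a).natAbs ≤ k → a - M ≤ y → y ≤ b + M →
        c y - y = c (red y) - red y := by
    intro c hc k
    induction k using Nat.strong_induction_on with
    | _ k ih =>
      intro y hk h1 h2
      by_cases hlo : a ≤ y
      · by_cases hhi : y < b
        · have : red y = y := by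
            simp only [red]; rw [Int.emod_eq_of_lt (by omega) (by omega)]; ring
          rw [this]
        · have e := hc (y - b) (by rw [abs_le]; constructor <;> omega)
          rw [show b + (y - b) = y by ring] at e
          have e' : red (a + (y - b)) = red y := by
            simp only [red]
            congr 1
            rw [show y - a = a + (y - b) - a + (p : ℤ) by omega, Int.add_emod_right]
          have := ih (a + (y - b) - a).natAbs (by omega) (a + (y - b)) le_rfl (by omega) (by omega)
          rw [e'] at this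
          omega
      · have e := hc (y - a) (by rw [abs_le]; constructor <;> omega)
        rw [show a + (y - a) = y by ring] at e
        have e' : red (b + (y - a)) = red y := by
          simp only [red]
          congr 1
          rw [show b + (y - a) - a = y - a + (p : ℤ) by omega, Int.add_emod_right]
        by_cases hin : a ≤ b + (y - a)
        · have : red y = b + (y - a) := by
            rw [← e']
            simp only [red]
            rw [Int.emod_eq_of_lt (by omega) (by omega)]; ring
          rw [this]; omega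
        · have := ih (b + (y - a) - a).natAbs (by omega) (b + (y - a)) le_rfl (by omega)
            (by omega)
          rw [e'] at this
          omega
  have hloc : ∀ (c : ℤ → ℤ), (∀ j : ℤ, |j| ≤ (M : ℤ) → c (a + j) - a = c (b + j) - b) →
      ∀ x j : ℤ, |j| ≤ (M : ℤ) →
        c (red (x + j)) - red (x + j) = c (red x + j) - (red x + j) := by
    intro c hc x j hj
    rw [abs_le] at hj
    have := hred x
    rw [hwin c hc _ (red x + j) le_rfl (by omega) (by omega)]
    have e : red (red x + j) = red (x + j) := by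
      simp only [red]
      congr 1
      rw [show a + (x - a) % (p : ℤ) + j - a = (x - a) % (p : ℤ) + j by ring, Int.emod_add_emod]
      ring_nf
    rw [e]
  let s : Fin n → ℤ → ℤ := fun i x => x + (σ i (red x) - red x)
  let t : Fin n → ℤ → ℤ := fun i x => x + ((σ i)⁻¹ (red x) - red x)
  have hDM : (D : ℤ) ≤ M := by omega
  have hts : ∀ i x, t i (s i x) = x := fun i x => by
    simp only [s, t]
    rw [hloc _ (fun j hj => (hw i j hj).2) x _ ((hD i _).1.trans hDM), add_sub_cancel,
      Perm.inv_def, Equiv.symm_apply_apply]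
    ring
  have hst : ∀ i x, s i (t i x) = x := fun i x => by
    simp only [s, t]
    rw [hloc _ (fun j hj => (hw i j hj).1) x _ ((hD i _).2.trans hDM), add_sub_cancel,
      Perm.inv_def, Equiv.apply_symm_apply]
    ring
  let σ' : Fin n → Perm ℤ := fun i => ⟨s i, t i, hts i, hst i⟩
  refine ⟨σ', fun r hr => Equiv.ext fun x => ?_, ?_, fun i x h1 h2 => ?_⟩
  · have h := agree σ' σ D M x (red x) hD (fun i j hj => ⟨?_, ?_⟩) r.toWord
      ((Nat.mul_le_mul_left D (hL r hr)).trans (by omega))
    · rw [FreeGroup.mk_toWord, hR r hr] at h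
      simpa using h.1
    · show s i (x + j) = _
      simp only [s]
      rw [hloc _ (fun j hj => (hw i j hj).1) x j hj]
      ring
    · show t i (x + j) = _
      simp only [t]
      rw [hloc _ (fun j hj => (hw i j hj).2) x j hj]
      ring
  · intro w
    induction w using FreeGroup.induction_on with
    | C1 => simp
    | of i =>
      intro x
      rw [FreeGroup.lift_apply_of]
      show s i (x + (b - a)) = s i x + (b - a)
      have : red (x + (b - a)) = red x := by
        simp only [red]
        congr 1
        rw [show x + (b - a) - a = x - a + (p : ℤ) by omega, Int.add_emod_right]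
      simp only [s, this]
      ring
    | inv_of i h =>
      intro x
      rw [map_inv, Perm.inv_eq_iff_eq, h, Perm.inv_def, Equiv.apply_symm_apply]
    | mul u v hu hv =>
      intro x
      simp only [map_mul, Perm.mul_apply, hv, hu]
  · show s i x = σ i x
    simp only [s]
    rw [← hwin _ (fun j hj => (hw i j hj).1) _ x le_rfl h1 h2]
    ring

end Vale.Agent.P192
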