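import Mathlib
import Vale.Agent.P192.Local

/-!
P192: orbits of finitely presented periodic groups acting on `ℤ` by bounded displacements
have bounded diameter.
-/

namespace Vale.Agent.P192

open Equiv Relation

/-- Ramsey's theorem for triangles in colourings of pairs of integers. -/
theorem exists_triangle (α : Type) [Finite α] : ∃ N : ℕ, ∀ (col : ℤ → ℤ → α) (T : Finset ℤ),
    N ≤ T.card → ∃ x ∈ T, ∃ y ∈ T, ∃ z ∈ T,
      x < y ∧ y < z ∧ col x y = col y z ∧ col x y = col x z := by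
  classical
  have : Fintype α := Fintype.ofFinite α
  suffices h : ∀ m : ℕ, ∃ N : ℕ, ∀ (col : ℤ → ℤ → α) (S : Finset α) (T : Finset ℤ),
      S.card ≤ m → (∀ x ∈ T, ∀ y ∈ T, x < y → col x y ∈ S) → N ≤ T.card →
      ∃ x ∈ T, ∃ y ∈ T, ∃ z ∈ T, x < y ∧ y < z ∧ col x y = col y z ∧ col x y = col x z by
    obtain ⟨N, hN⟩ := h (Fintype.card α)
    exact ⟨N, fun col T hT => hN col Finset.univ T le_rfl (by simp) hT⟩
  intro m
  induction m with
  | zero =>
    refine ⟨2, fun col S T hS hmem hT => ?_⟩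
    obtain ⟨x, hx, y, hy, hne⟩ := Finset.one_lt_card.1 (show 1 < T.card by omega)
    rw [Nat.le_zero, Finset.card_eq_zero] at hS
    rcases lt_or_gt_of_ne hne with h | h
    · simpa [hS] using hmem x hx y hy h
    · simpa [hS] using hmem y hy x hx h
  | succ m ih =>
    obtain ⟨N, hN⟩ := ih
    refine ⟨(m + 1) * N + 2, fun col S T hS hmem hT => ?_⟩
    have hne : T.Nonempty := Finset.card_pos.1 (by omega)
    set a := T.min' hne
    have ha : a ∈ T := T.min'_mem hne
    have hlt : ∀ x ∈ T.erase a, a < x := fun x hx =>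
      lt_of_le_of_ne (T.min'_le x (Finset.mem_of_mem_erase hx)) (Finset.ne_of_mem_erase hx).symm
    obtain ⟨c, hc, hcard⟩ := Finset.exists_lt_card_fiber_of_mul_lt_card_of_maps_to
      (s := T.erase a) (t := S) (f := col a) (n := N)
      (fun x hx => hmem a ha x (Finset.mem_of_mem_erase hx) (hlt x hx))
      (by rw [Finset.card_erase_of_mem ha]
          have : S.card * N ≤ (m + 1) * N := Nat.mul_le_mul_right _ hS
          omega)
    set T' := (T.erase a).filter (fun x => col a x = c)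
    have hsub : ∀ x ∈ T', x ∈ T ∧ a < x ∧ col a x = c := fun x hx => by
      rw [Finset.mem_filter] at hx
      exact ⟨Finset.mem_of_mem_erase hx.1, hlt x hx.1, hx.2⟩
    by_cases hin : ∃ x ∈ T', ∃ y ∈ T', x < y ∧ col x y = c
    · obtain ⟨x, hx, y, hy, hxy, hcol⟩ := hin
      obtain ⟨hx1, hx2, hx3⟩ := hsub x hx
      obtain ⟨hy1, hy2, hy3⟩ := hsub y hy
      exact ⟨a, ha, x, hx1, y, hy1, hx2, hxy, hx3.trans hcol.symm, hx3.trans hy3.symm⟩
    · push_neg at hin
      obtain ⟨x, hx, y, hy, z, hz, h⟩ := hN col (S.erase c) T'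
        (by rw [Finset.card_erase_of_mem hc]; omega)
        (fun x hx y hy hxy => Finset.mem_erase.2
          ⟨hin x hx y hy hxy, hmem x (hsub x hx).1 y (hsub y hy).1 hxy⟩) hcard.le
      exact ⟨x, (hsub x hx).1, y, (hsub y hy).1, z, (hsub z hz).1, h⟩

variable {n : ℕ}

/-- Connected by steps of the generators inside `[l, r)`. -/
def Conn (σ : Fin n → Perm ℤ) (l r : ℤ) : ℤ → ℤ → Prop :=
  ReflTransGen fun u v => (∃ i, σ i u = v ∨ σ i v = u) ∧ (l ≤ u ∧ u < r) ∧ (l ≤ v ∧ v < r)

/-- Orbits are uniformly bounded. -/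
theorem orbit_bound (R : Set (FreeGroup (Fin n))) (hfin : R.Finite)
    (ht : ∀ w : FreeGroup (Fin n), ∃ m : ℕ, 0 < m ∧ w ^ m ∈ Subgroup.normalClosure R) (D : ℕ) :
    ∃ K : ℕ, ∀ σ : Fin n → Perm ℤ,
      (∀ i z, |σ i z - z| ≤ (D : ℤ) ∧ |(σ i)⁻¹ z - z| ≤ (D : ℤ)) →
      (∀ r ∈ R, FreeGroup.lift σ r = 1) → ∀ w u, |FreeGroup.lift σ w u - u| ≤ (K : ℤ) := by
  classical
  let L : ℕ := hfin.toFinset.sup fun r => r.toWord.length
  have hL : ∀ r ∈ R, r.toWord.length ≤ L := fun r hr =>
    Finset.le_sup (f := fun r : FreeGroup (Fin n) => r.toWord.length) (hfin.mem_toFinset.2 hr)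
  let M : ℕ := D * L + 2 * D
  obtain ⟨N, hN⟩ := exists_triangle
    ((Bool → Fin n → Finset.Icc (-(M : ℤ)) M →
        Finset.Icc (-(D : ℤ)) D × Finset.Icc (-(D : ℤ)) D) ×
      (Bool × Fin (D + 1) → Bool × Fin (D + 1) → Prop))
  refine ⟨N + 1, fun σ hD hR => ?_⟩
  suffices key : ∀ u v, u < v → ReflTransGen (fun u v => ∃ i, σ i u = v ∨ σ i v = u) u v →
      v - u ≤ (N : ℤ) + 1 by
    have hsymm : ∀ u v : ℤ, ReflTransGen (fun u v => ∃ i, σ i u = v ∨ σ i v = u) u v →
        ReflTransGen (fun u v => ∃ i, σ i u = v ∨ σ i v = u) v u := fun u v h => by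
      induction h with
      | refl => exact .refl
      | tail _ hs ih => exact .head (hs.imp fun _ h => h.symm) ih
    have hcon : ∀ w u, ReflTransGen (fun u v => ∃ i, σ i u = v ∨ σ i v = u) u
        (FreeGroup.lift σ w u) := by
      intro w
      induction w using FreeGroup.induction_on with
      | C1 => intro u; simp only [map_one, Perm.one_apply]; exact .refl
      | of i => intro u; rw [FreeGroup.lift_apply_of]; exact .single ⟨i, Or.inl rfl⟩
      | inv_of i h =>
        intro u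
        have := h ((FreeGroup.lift σ (FreeGroup.of i))⁻¹ u)
        rw [Perm.inv_def, Equiv.apply_symm_apply] at this
        rw [map_inv, Perm.inv_def]
        exact hsymm _ _ this
      | mul a b ha hb =>
        intro u
        rw [map_mul, Perm.mul_apply]
        exact (hb u).trans (ha _)
    intro w u
    rw [abs_le]
    rcases lt_trichotomy u (FreeGroup.lift σ w u) with h | h | h
    · have := key _ _ h (hcon w u)
      push_cast; constructor <;> omega
    · push_cast; constructor <;> omega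
    · have := key _ _ h (hsymm _ _ (hcon w u))
      push_cast; constructor <;> omega
  intro u₀ v₀ huv hpath
  by_contra hlong
  have hmem : ∀ i z, σ i z - z ∈ Finset.Icc (-(D : ℤ)) D :=
    fun i z => Finset.mem_Icc.2 (abs_le.1 (hD i z).1)
  have hmem' : ∀ i z, (σ i)⁻¹ z - z ∈ Finset.Icc (-(D : ℤ)) D :=
    fun i z => Finset.mem_Icc.2 (abs_le.1 (hD i z).2)
  let pt : ℤ → ℤ → Bool × Fin (D + 1) → ℤ := fun x y s => (cond s.1 y x) + (s.2.1 : ℤ)
  obtain ⟨x, hx, y, hy, z, hz, hxy, hyz, hcol1, hcol2⟩ := hN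
    (fun x y => (fun s i j => (⟨σ i (cond s y x + j.1) - (cond s y x + j.1), hmem _ _⟩,
        ⟨(σ i)⁻¹ (cond s y x + j.1) - (cond s y x + j.1), hmem' _ _⟩),
      fun s s' => Conn σ x (y + (D + 1)) (pt x y s) (pt x y s')))
    (Finset.Ioo u₀ v₀) (by rw [Int.card_Ioo]; omega)
  rw [Finset.mem_Ioo] at hx hy hz
  simp only [Prod.mk.injEq] at hcol1 hcol2
  have hw : ∀ i (j : ℤ), |j| ≤ (M : ℤ) →
      σ i (x + j) - x = σ i (y + j) - y ∧ (σ i)⁻¹ (x + j) - x = (σ i)⁻¹ (y + j) - y := by
    intro i j hj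
    have h := congrFun (congrFun (congrFun hcol1.1 false) i)
      ⟨j, Finset.mem_Icc.2 (abs_le.1 hj)⟩
    simp only [Prod.mk.injEq, Subtype.mk.injEq, cond_false] at h
    omega
  obtain ⟨σ', hR', hper, heq⟩ := periodic_extension σ D L M le_rfl hD R hL hR x y hxy hw
  -- the crossing
  have cross : ∀ v, ReflTransGen (fun u v => ∃ i, σ i u = v ∨ σ i v = u) v v₀ →
      (v < x → ∃ k k' : Fin (D + 1), Conn σ x (z + (D + 1)) (x + (k.1 : ℤ)) (z + (k'.1 : ℤ))) ∧
      (x ≤ v → v < z + (D + 1) →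
        (∃ k' : Fin (D + 1), Conn σ x (z + (D + 1)) v (z + (k'.1 : ℤ))) ∨
        ∃ k k' : Fin (D + 1), Conn σ x (z + (D + 1)) (x + (k.1 : ℤ)) (z + (k'.1 : ℤ))) := by
    intro v hv
    induction hv using ReflTransGen.head_induction_on with
    | refl =>
      refine ⟨fun h => by omega, fun _ h => Or.inl ⟨⟨(v₀ - z).toNat, by omega⟩, ?_⟩⟩
      rw [show z + (((v₀ - z).toNat : ℕ) : ℤ) = v₀ by omega]
      exact .refl
    | @head v v' hstep _ ih =>
      obtain ⟨i, hi⟩ := hstep
      have hd : |v' - v| ≤ (D : ℤ) := by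
        rcases hi with h | h
        · rw [← h]; exact (hD i v).1
        · rw [← h, abs_sub_comm]; exact (hD i v').1
      rw [abs_le] at hd
      constructor
      · intro hvx
        by_cases h' : v' < x
        · exact ih.1 h'
        · rcases ih.2 (by omega) (by omega) with ⟨k', hk'⟩ | h
          · refine ⟨⟨(v' - x).toNat, by omega⟩, k', ?_⟩
            rw [show x + (((v' - x).toNat : ℕ) : ℤ) = v' by omega]
            exact hk'
          · exact h
      · intro h1 h2
        by_cases hz' : z ≤ v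
        · refine Or.inl ⟨⟨(v - z).toNat, by omega⟩, ?_⟩
          rw [show z + (((v - z).toNat : ℕ) : ℤ) = v by omega]
          exact .refl
        by_cases h' : v' < x
        · exact Or.inr (ih.1 h')
        rcases ih.2 (by omega) (by omega) with ⟨k', hk'⟩ | h
        · exact Or.inl ⟨k', .head ⟨⟨i, hi⟩, ⟨h1, h2⟩, by omega, by omega⟩ hk'⟩
        · exact Or.inr h
  obtain ⟨k, k', hcross⟩ : ∃ k k' : Fin (D + 1),
      Conn σ x (z + (D + 1)) (x + (k.1 : ℤ)) (z + (k'.1 : ℤ)) := (cross u₀ hpath).1 hx.1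
  -- orbit of the periodic action
  let O : ℤ → ℤ → Prop := fun a b => ∃ w, FreeGroup.lift σ' w a = b
  have hOtrans : ∀ {a b c}, O a b → O b c → O a c := fun ⟨w, hw⟩ ⟨w', hw'⟩ =>
    ⟨w' * w, by rw [map_mul, Perm.mul_apply, hw, hw']⟩
  have hOshift : ∀ {a b}, O a b → O (a + (y - x)) (b + (y - x)) := fun ⟨w, hw⟩ =>
    ⟨w, by rw [hper, hw]⟩
  have hOsymm : ∀ {a b}, O a b → O b a := fun ⟨w, hw⟩ =>
    ⟨w⁻¹, by rw [map_inv, Perm.inv_eq_iff_eq, hw]⟩
  have hOedge : ∀ a b, x ≤ a → a < y + (D + 1) → x ≤ b → b < y + (D + 1) →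
      (∃ i, σ i a = b ∨ σ i b = a) → O a b := by
    rintro a b ha1 ha2 hb1 hb2 ⟨i, h | h⟩
    · exact ⟨FreeGroup.of i, by rw [FreeGroup.lift_apply_of, heq i a (by omega) (by omega), h]⟩
    · exact hOsymm
        ⟨FreeGroup.of i, by rw [FreeGroup.lift_apply_of, heq i b (by omega) (by omega), h]⟩
  have hconn : ∀ a b, Conn σ x (y + (D + 1)) a b → O a b := by
    intro a b h
    induction h with
    | refl => exact ⟨1, by simp⟩
    | tail _ hstep ih =>
      exact hOtrans ih (hOedge _ _ hstep.2.1.1 hstep.2.1.2 hstep.2.2.1 hstep.2.2.2 hstep.1)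
  have hrel : ∀ s s', Conn σ y (z + (D + 1)) (pt y z s) (pt y z s') →
      O (pt x y s + (y - x)) (pt x y s' + (y - x)) := fun s s' h =>
    hOshift (hconn _ _ (Eq.mpr (congrFun (congrFun hcol1.2 s) s') h))
  set u := x + (k.1 : ℤ)
  have hinv : ∀ v, Conn σ x (z + (D + 1)) u v →
      (v < y + (D + 1) → O u v) ∧
      (y ≤ v → ∀ j : Fin (D + 1),
        (Conn σ y (z + (D + 1)) v (y + (j.1 : ℤ)) → O u (y + (j.1 : ℤ))) ∧
        (Conn σ y (z + (D + 1)) v (z + (j.1 : ℤ)) → O u (y + (y - x) + (j.1 : ℤ)))) := by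
    have hov : ∀ v, y ≤ v → v < y + (D + 1) → O u v → ∀ j : Fin (D + 1),
        (Conn σ y (z + (D + 1)) v (y + (j.1 : ℤ)) → O u (y + (j.1 : ℤ))) ∧
        (Conn σ y (z + (D + 1)) v (z + (j.1 : ℤ)) → O u (y + (y - x) + (j.1 : ℤ))) := by
      intro v h1 h2 hO j
      have hj0 : ((v - y).toNat : ℕ) < D + 1 := by omega
      have e : pt y z (false, ⟨_, hj0⟩) = v := by simp only [pt, cond_false]; omega
      have e' : pt x y (false, ⟨_, hj0⟩) + (y - x) = v := by simp only [pt, cond_false]; omega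
      constructor <;> intro h
      · have := hrel (false, ⟨_, hj0⟩) (false, j) (by rw [e]; exact h)
        rw [e'] at this
        simp only [pt, cond_false] at this
        rw [show x + (j.1 : ℤ) + (y - x) = y + j.1 by ring] at this
        exact hOtrans hO this
      · have := hrel (false, ⟨_, hj0⟩) (true, j) (by rw [e]; exact h)
        rw [e'] at this
        simp only [pt, cond_true] at this
        rw [show y + (j.1 : ℤ) + (y - x) = y + (y - x) + j.1 by ring] at this
        exact hOtrans hO this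
    intro v hv
    induction hv with
    | refl =>
      have : (k.1 : ℤ) ≤ D := by have := k.2; omega
      exact ⟨fun _ => ⟨1, by simp⟩, fun h => hov u h (by omega) ⟨1, by simp⟩⟩
    | @tail a b _ hstep ih =>
      obtain ⟨⟨i, hi⟩, ⟨ha1, ha2⟩, hb1, hb2⟩ := hstep
      have hd : |b - a| ≤ (D : ℤ) := by
        rcases hi with h | h
        · rw [← h]; exact (hD i a).1
        · rw [← h, abs_sub_comm]; exact (hD i b).1
      rw [abs_le] at hd
      have hleft : b < y + (D + 1) → O u b := fun hb => by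
        by_cases ha : a < y + (D + 1)
        · exact hOtrans (ih.1 ha) (hOedge a b ha1 ha hb1 hb ⟨i, hi⟩)
        · have hb' : ((b - y).toNat : ℕ) < D + 1 := by omega
          have := (ih.2 (by omega) ⟨_, hb'⟩).1
          rw [show y + (((b - y).toNat : ℕ) : ℤ) = b by omega] at this
          exact this (.single ⟨⟨i, hi⟩, ⟨by omega, ha2⟩, by omega, hb2⟩)
      refine ⟨hleft, fun hby j => ?_⟩
      by_cases hb : b < y + (D + 1)
      · exact hov b hby hb (hleft hb) j
      · exact ⟨fun h => (ih.2 (by omega) j).1 (.head ⟨⟨i, hi⟩, ⟨by omega, ha2⟩, hby, hb2⟩ h),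
          fun h => (ih.2 (by omega) j).2 (.head ⟨⟨i, hi⟩, ⟨by omega, ha2⟩, hby, hb2⟩ h)⟩
  have hfar : O u (y + (y - x) + (k'.1 : ℤ)) := ((hinv _ hcross).2 (by omega) k').2 .refl
  have hnear : O u (y + (k'.1 : ℤ)) := by
    have e : Conn σ x (y + (D + 1)) (pt x y (false, k)) (pt x y (true, k')) :=
      Eq.mpr (congrFun (congrFun hcol2.2 (false, k)) (true, k')) hcross
    exact hconn _ _ e
  obtain ⟨w, hw'⟩ := hOtrans (hOsymm hnear) hfar
  set b := y + (k'.1 : ℤ)
  have hstep : FreeGroup.lift σ' w b = b + (y - x) := by rw [hw']; ring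
  have hiter : ∀ m : ℕ, FreeGroup.lift σ' (w ^ m) b = b + (m : ℤ) * (y - x) := by
    intro m
    induction m with
    | zero => simp
    | succ m ih =>
      have hk : ∀ t : ℕ, FreeGroup.lift σ' w (b + (t : ℤ) * (y - x)) =
          FreeGroup.lift σ' w b + (t : ℤ) * (y - x) := by
        intro t
        induction t with
        | zero => simp
        | succ t iht =>
          rw [show b + ((t + 1 : ℕ) : ℤ) * (y - x) = b + (t : ℤ) * (y - x) + (y - x) by
            push_cast; ring, hper, iht]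
          push_cast; ring
      rw [pow_succ', map_mul, Perm.mul_apply, ih, hk, hstep]
      push_cast; ring
  obtain ⟨m, hm, hmem⟩ := ht w
  have h1 : FreeGroup.lift σ' (w ^ m) = 1 := MonoidHom.mem_ker.1
    (Subgroup.normalClosure_le_normal (fun r hr => MonoidHom.mem_ker.2 (hR' r hr)) hmem)
  have := hiter m
  rw [h1, Perm.one_apply] at this
  have h2 : (m : ℤ) * (y - x) = 0 := by linarith
  rcases mul_eq_zero.1 h2 with h | h <;> omega

end Vale.Agent.P192
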